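import Mathlib

/-!
Greedy for k-median when all client-facility distances lie in `[a, b]`.
-/

namespace Vale.Agent.Lib.P334

open Finset

variable {J F : Type*} [Fintype J] [DecidableEq F]

/-- The k-median cost of a nonempty facility set: each client pays its distance to the nearest facility. -/
noncomputable def kCost (d : J → F → ℝ) (S : Finset F) (hS : S.Nonempty) : ℝ :=
  ∑ j, S.inf' hS (d j)

/-- A greedy run: start with no facility; each step adds a facility that minimizes the new cost. -/
def IsGreedy (d : J → F → ℝ) (seq : ℕ → Finset F) : Prop :=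
  seq 0 = ∅ ∧ ∀ t, ∃ i, seq (t + 1) = insert i (seq t) ∧
    ∀ i', kCost d (insert i (seq t)) (insert_nonempty i _) ≤
      kCost d (insert i' (seq t)) (insert_nonempty i' _)

/-- Auxiliary cost, capped by `b`, defined also for the empty set. -/
noncomputable def capCost (d : J → F → ℝ) (b : ℝ) (S : Finset F) : ℝ :=
  ∑ j, S.fold min b (d j)

theorem kCost_eq (d : J → F → ℝ) {b : ℝ} (hb : ∀ j i, d j i ≤ b) (S : Finset F) (hS : S.Nonempty) :
    kCost d S hS = capCost d b S := by
  unfold kCost capCost
  refine Finset.sum_congr rfl fun j _ => le_antisymm ?_ ?_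
  · rw [Finset.le_fold_min]
    obtain ⟨x, hx⟩ := hS
    exact ⟨(Finset.inf'_le _ hx).trans (hb j x), fun y hy => Finset.inf'_le _ hy⟩
  · refine Finset.le_inf' _ _ fun x hx => ?_
    rw [Finset.fold_min_le]
    exact Or.inr ⟨x, hx, le_rfl⟩

theorem cap_insert_le (d : J → F → ℝ) (b : ℝ) (j : J) (i : F) (S : Finset F) :
    (insert i S).fold min b (d j) ≤ S.fold min b (d j) := by
  rw [Finset.le_fold_min]
  constructor
  · rw [Finset.fold_min_le]
    exact Or.inl le_rfl
  · intro x hx
    rw [Finset.fold_min_le]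
    exact Or.inr ⟨x, mem_insert_of_mem hx, le_rfl⟩

theorem cap_step (d : J → F → ℝ) (b : ℝ) (S T : Finset F) :
    capCost d b S - capCost d b T ≤ ∑ i ∈ T, (capCost d b S - capCost d b (insert i S)) := by
  unfold capCost
  rw [← Finset.sum_sub_distrib]
  have : ∑ i ∈ T, (∑ j, S.fold min b (d j) - ∑ j, (insert i S).fold min b (d j)) =
      ∑ j, ∑ i ∈ T, (S.fold min b (d j) - (insert i S).fold min b (d j)) := by
    rw [Finset.sum_comm]
    refine Finset.sum_congr rfl fun i _ => ?_
    rw [Finset.sum_sub_distrib]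
  rw [this]
  refine Finset.sum_le_sum fun j _ => ?_
  have hnn : ∀ i ∈ T, 0 ≤ S.fold min b (d j) - (insert i S).fold min b (d j) := fun i _ =>
    sub_nonneg.mpr (cap_insert_le d b j i S)
  by_cases hle : S.fold min b (d j) ≤ T.fold min b (d j)
  · have h0 := Finset.sum_nonneg hnn
    linarith
  · push Not at hle
    have hSb : S.fold min b (d j) ≤ b := by
      rw [Finset.fold_min_le]
      exact Or.inl le_rfl
    have h2 : T.fold min b (d j) ≤ T.fold min b (d j) := le_rfl
    rw [Finset.fold_min_le] at h2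
    rcases h2 with h2 | ⟨x, hx, hx2⟩
    · linarith
    · have h3 : (insert x S).fold min b (d j) ≤ d j x := by
        rw [Finset.fold_min_le]
        exact Or.inr ⟨x, mem_insert_self _ _, le_rfl⟩
      have h4 := Finset.single_le_sum hnn hx
      linarith

theorem greedy_contract (d : J → F → ℝ) {b : ℝ} (hb : ∀ j i, d j i ≤ b) {seq : ℕ → Finset F}
    (hg : IsGreedy d seq) {T : Finset F} {k : ℕ} (hk : 1 ≤ k) (hT : T.card ≤ k) (t : ℕ) :
    capCost d b (seq (t + 1)) - capCost d b T ≤
      (1 - 1 / (k : ℝ)) * (capCost d b (seq t) - capCost d b T) := by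
  obtain ⟨i, hi, hmin⟩ := hg.2 t
  have hmin' : ∀ i', capCost d b (insert i (seq t)) ≤ capCost d b (insert i' (seq t)) := by
    intro i'
    have := hmin i'
    rwa [kCost_eq d hb, kCost_eq d hb] at this
  rw [hi]
  set g := capCost d b (seq t) - capCost d b (insert i (seq t)) with hg0
  have hgnn : 0 ≤ g := by
    rw [hg0]
    unfold capCost
    exact sub_nonneg.mpr (Finset.sum_le_sum fun j _ => cap_insert_le d b j i _)
  have hsum : ∑ i' ∈ T, (capCost d b (seq t) - capCost d b (insert i' (seq t))) ≤ (T.card : ℝ) * g := by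
    have : ∀ i' ∈ T, capCost d b (seq t) - capCost d b (insert i' (seq t)) ≤ g := by
      intro i' _
      have := hmin' i'
      rw [hg0]
      linarith
    simpa using Finset.sum_le_card_nsmul T _ g this
  have hkpos : (0 : ℝ) < k := by exact_mod_cast hk
  have hcard : (T.card : ℝ) ≤ k := by exact_mod_cast hT
  have hmain : capCost d b (seq t) - capCost d b T ≤ (k : ℝ) * g :=
    (cap_step d b (seq t) T).trans (hsum.trans (mul_le_mul_of_nonneg_right hcard hgnn))
  have e1 : capCost d b (insert i (seq t)) - capCost d b T =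
      (capCost d b (seq t) - capCost d b T) - g := by
    rw [hg0]; ring
  rw [e1]
  have e2 : (1 - 1 / (k : ℝ)) * (capCost d b (seq t) - capCost d b T) =
      (capCost d b (seq t) - capCost d b T) - (capCost d b (seq t) - capCost d b T) / k := by
    field_simp
  rw [e2]
  have : (capCost d b (seq t) - capCost d b T) / k ≤ g := by
    rw [div_le_iff₀ hkpos]
    linarith
  linarith

theorem greedy_iter (d : J → F → ℝ) {b : ℝ} (hb : ∀ j i, d j i ≤ b) {seq : ℕ → Finset F}
    (hg : IsGreedy d seq) {T : Finset F} {k : ℕ} (hk : 1 ≤ k) (hT : T.card ≤ k) (t : ℕ) :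
    capCost d b (seq t) - capCost d b T ≤
      (1 - 1 / (k : ℝ)) ^ t * (capCost d b (seq 0) - capCost d b T) := by
  have hkpos : (1 : ℝ) ≤ k := by exact_mod_cast hk
  have hρ : 0 ≤ 1 - 1 / (k : ℝ) := by
    have : 1 / (k : ℝ) ≤ 1 := by
      rw [div_le_one (by linarith)]
      exact hkpos
    linarith
  induction t with
  | zero => simp
  | succ t ih =>
    refine (greedy_contract d hb hg hk hT t).trans ?_
    calc (1 - 1 / (k : ℝ)) * (capCost d b (seq t) - capCost d b T)
        ≤ (1 - 1 / (k : ℝ)) * ((1 - 1 / (k : ℝ)) ^ t * (capCost d b (seq 0) - capCost d b T)) :=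
          mul_le_mul_of_nonneg_left ih hρ
      _ = (1 - 1 / (k : ℝ)) ^ (t + 1) * (capCost d b (seq 0) - capCost d b T) := by ring

theorem rho_pow_le {k : ℕ} (hk : 1 ≤ k) : (1 - 1 / (k : ℝ)) ^ k ≤ Real.exp (-1) := by
  have hkpos : (1 : ℝ) ≤ k := by exact_mod_cast hk
  have hρ : 0 ≤ 1 - 1 / (k : ℝ) := by
    have : 1 / (k : ℝ) ≤ 1 := by
      rw [div_le_one (by linarith)]
      exact hkpos
    linarith
  have h1 : 1 - 1 / (k : ℝ) ≤ Real.exp (-(1 / (k : ℝ))) := Real.one_sub_le_exp_neg _
  calc (1 - 1 / (k : ℝ)) ^ k ≤ (Real.exp (-(1 / (k : ℝ)))) ^ k := pow_le_pow_left₀ hρ h1 k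
    _ = Real.exp ((k : ℝ) * (-(1 / (k : ℝ)))) := (Real.exp_nat_mul _ _).symm
    _ = Real.exp (-1) := by
      congr 1
      have : (k : ℝ) ≠ 0 := by linarith
      field_simp

theorem seq_card {d : J → F → ℝ} {seq : ℕ → Finset F} (hg : IsGreedy d seq) (t : ℕ) :
    (seq t).card ≤ t := by
  induction t with
  | zero => simp [hg.1]
  | succ t ih =>
    obtain ⟨i, hi, _⟩ := hg.2 t
    rw [hi]
    exact (Finset.card_insert_le _ _).trans (by omega)

theorem seq_nonempty {d : J → F → ℝ} {seq : ℕ → Finset F} (hg : IsGreedy d seq) {k : ℕ} (hk : 1 ≤ k) :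
    (seq k).Nonempty := by
  obtain ⟨t, rfl⟩ : ∃ t, k = t + 1 := ⟨k - 1, by omega⟩
  obtain ⟨i, hi, _⟩ := hg.2 t
  rw [hi]
  exact insert_nonempty _ _

/-- Main bound. -/
theorem greedy_bound (d : J → F → ℝ) {a b : ℝ} (ha : 0 < a) (hab : a ≤ b)
    (hd : ∀ j i, a ≤ d j i ∧ d j i ≤ b) {seq : ℕ → Finset F} (hg : IsGreedy d seq) {k : ℕ}
    (hk : 1 ≤ k) (hS : (seq k).Nonempty) {T : Finset F} (hT : T.Nonempty) (hTk : T.card ≤ k) :
    kCost d (seq k) hS ≤ (1 + (b / a - 1) * Real.exp (-1)) * kCost d T hT := by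
  have hb : ∀ j i, d j i ≤ b := fun j i => (hd j i).2
  rw [kCost_eq d hb, kCost_eq d hb]
  have hit := greedy_iter d hb hg hk hTk k
  have hzero : capCost d b (seq 0) = (Fintype.card J : ℝ) * b := by
    rw [hg.1]
    simp [capCost]
  have hTle : capCost d b T ≤ (Fintype.card J : ℝ) * b := by
    unfold capCost
    have : ∀ j ∈ (univ : Finset J), T.fold min b (d j) ≤ b := by
      intro j _
      rw [Finset.fold_min_le]
      exact Or.inl le_rfl
    simpa using Finset.sum_le_card_nsmul univ _ b this
  have hTge : (Fintype.card J : ℝ) * a ≤ capCost d b T := by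
    unfold capCost
    have : ∀ j ∈ (univ : Finset J), a ≤ T.fold min b (d j) := by
      intro j _
      rw [Finset.le_fold_min]
      exact ⟨hab, fun x _ => (hd j x).1⟩
    simpa using Finset.card_nsmul_le_sum univ _ a this
  have hx0 : 0 ≤ capCost d b (seq 0) - capCost d b T := by
    rw [hzero]
    linarith
  have hE := rho_pow_le hk
  have h1 : capCost d b (seq k) - capCost d b T ≤
      Real.exp (-1) * ((Fintype.card J : ℝ) * b - capCost d b T) := by
    refine hit.trans ?_
    rw [hzero] at hx0 ⊢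
    exact mul_le_mul_of_nonneg_right hE hx0
  have hEpos : 0 < Real.exp (-1) := Real.exp_pos _
  have hba : 0 ≤ b / a := div_nonneg (by linarith) ha.le
  have h2 : (Fintype.card J : ℝ) * b ≤ (b / a) * capCost d b T := by
    have : (Fintype.card J : ℝ) * b = (b / a) * ((Fintype.card J : ℝ) * a) := by
      field_simp
    rw [this]
    exact mul_le_mul_of_nonneg_left hTge hba
  have h3 : Real.exp (-1) * ((Fintype.card J : ℝ) * b - capCost d b T) ≤
      Real.exp (-1) * ((b / a) * capCost d b T - capCost d b T) :=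
    mul_le_mul_of_nonneg_left (by linarith) hEpos.le
  have h4 : (1 + (b / a - 1) * Real.exp (-1)) * capCost d b T =
      capCost d b T + Real.exp (-1) * ((b / a) * capCost d b T - capCost d b T) := by ring
  rw [h4]
  linarith

section Exists

variable [Fintype F] [Nonempty F]

open Classical in
/-- One greedy step. -/
noncomputable def greedyPick (d : J → F → ℝ) (S : Finset F) : F :=
  (Finset.exists_min_image (univ : Finset F)
    (fun i => kCost d (insert i S) (insert_nonempty i S)) univ_nonempty).choose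

/-- The greedy run obtained from the choices of `greedyPick`. -/
noncomputable def greedySeq (d : J → F → ℝ) : ℕ → Finset F
  | 0 => ∅
  | t + 1 => insert (greedyPick d (greedySeq d t)) (greedySeq d t)

theorem greedySeq_isGreedy (d : J → F → ℝ) : IsGreedy d (greedySeq d) := by
  refine ⟨rfl, fun t => ⟨greedyPick d (greedySeq d t), rfl, fun i' => ?_⟩⟩
  have := (Finset.exists_min_image (univ : Finset F)
    (fun i => kCost d (insert i (greedySeq d t)) (insert_nonempty i _)) univ_nonempty).choose_spec
  exact this.2 i' (mem_univ _)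

end Exists

end Vale.Agent.Lib.P334
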